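import Vale.Agent.P275TG.Gyp
import Vale.Agent.P275TU.Main
import Vale.Agent.P275TB.Pbf

/-!
# P275, the twist of a flat bundle by an algebraic unit
-/

open scoped Manifold ContDiff Topology Real
open Set Function Filter Topology Complex
open Vale.Agent.P272.K (Cm)
open Vale.Agent.P281Z Vale.Agent.P275RG Vale.Agent.P275MC Vale.Agent.P275B Vale.Agent.P275FM
open Vale.Agent.P275XI Vale.Agent.P275TB
open Vale.Agent.P275TU (Lg reg_zpow inv_tr)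
open P275S (H Nz wind wind_pb wind_congr)

noncomputable section

set_option backward.isDefEq.respectTransparency false

namespace Vale.Agent.P275TX

/-- the punctured line -/
def Gm : Vr 1 := ex_gm.choose

/-- its coordinate -/
def gm : Gm.X → ℂ := ex_gm.choose_spec.choose

theorem isGm : IsGm Gm gm := ex_gm.choose_spec.choose_spec

open Classical in
/-- the point with a given coordinate -/
def γ (w : ℂ) : Gm.X :=
  if h : w = 0 then (isGm.onto one_ne_zero).choose else (isGm.onto h).choose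

theorem gm_γ {w : ℂ} (h : w ≠ 0) : gm (γ w) = w := by
  rw [γ, dif_neg h, (isGm.onto h).choose_spec]

theorem γ_gm (y : Gm.X) : γ (gm y) = y := isGm.isEmb.injective (gm_γ (isGm.ne y))

theorem gm_cont : Continuous gm := isGm.isEmb.continuous

theorem γ_cont {w : ℂ} (h : w ≠ 0) : ContinuousAt γ w := by
  rw [ContinuousAt, isGm.isEmb.tendsto_nhds_iff, gm_γ h]
  exact tendsto_id.congr' ((eventually_ne_nhds h).mono fun _ k => (gm_γ k).symm)

theorem conv (u : ℂ) : Convex ℝ {w : ℂ | 0 < (w / u).re} :=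
  (convex_halfSpace_re_gt 0).is_linear_preimage (f := fun w : ℂ => w / u)
    ⟨fun _ _ => add_div _ _ _, fun _ _ => mul_div_assoc _ _ _⟩

theorem ex_lg : Nonempty (Lg gm) := by
  let u : Fin 4 → ℂ := ![1, -1, I, -I]
  have u0 : ∀ i, u i ≠ 0 := fun i => by fin_cases i <;> simp [u]
  let U : Fin 4 → Set Gm.X := fun i => {x | 0 < (gm x / u i).re}
  let l : Fin 4 → ℂ → ℂ := fun i w => log (u i) + log (w / u i)
  have c : ∀ i, ContinuousOn (l i) {w | 0 < (w / u i).re} := fun i =>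
    continuousOn_const.add (ContinuousOn.clog (by fun_prop) fun x h => Or.inl h)
  have e : ∀ i w, 0 < (w / u i).re → exp (l i w) = w := fun i w h => by
    rw [exp_add, exp_log (u0 i), exp_log fun k => by simp [k] at h, mul_div_cancel₀ _ (u0 i)]
  have key : ∀ i j, ∃ k : ℤ, ∀ w, 0 < (w / u i).re → 0 < (w / u j).re →
      l i w - l j w = k * (2 * π * I) := fun i j => by
    obtain ⟨_, ⟨k, rfl⟩, hk⟩ := ((conv (u i)).inter (conv (u j))).isPreconnected.eqOn_const_of_mapsTo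
      (T := AddSubgroup.zmultiples (2 * π * I : ℂ)) ⟨NormedSpace.discreteTopology_zmultiples _⟩
      (((c i).mono inter_subset_left).sub ((c j).mono inter_subset_right)) (fun w h => by
        obtain ⟨n, hn⟩ := exp_eq_exp_iff_exists_int.1 ((e i w h.1).trans (e j w h.2).symm)
        exact ⟨n, by simp [hn]⟩) ⟨0, zero_mem _⟩
    exact ⟨k, fun w a b => (hk ⟨a, b⟩).trans (zsmul_eq_mul _ _)⟩
  choose k hk using key
  refine ⟨⟨Fin 4, U, fun i x => l i (gm x), k, fun i => isOpen_lt continuous_const (by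
    have := gm_cont; fun_prop), fun i => ?_, fun x => ?_,
    fun i => (c i).comp gm_cont.continuousOn fun _ h => h, fun i x h => e i _ h,
    fun i j x => hk i j _⟩⟩
  · rw [← isGm.isEmb.isInducing.isPreconnected_image]
    convert (conv (u i)).isPreconnected
    exact Subset.antisymm (by rintro _ ⟨x, h, rfl⟩; exact h) fun w h =>
      have k : w ≠ 0 := fun k => by simp [k] at h
      ⟨γ w, by simpa only [U, mem_ofPred_eq, gm_γ k] using h, gm_γ k⟩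
  · by_contra h
    have h0 : ∀ i, (gm x / u i).re ≤ 0 := fun i => not_lt.1 (not_exists.1 h i)
    have h1 := h0 0
    have h2 := h0 1
    have h3 := h0 2
    have h4 := h0 3
    simp [u, div_neg] at h1 h2 h3 h4
    exact isGm.ne x (Complex.ext (le_antisymm h1 h2) (le_antisymm h3 h4))

/-- logarithms of the coordinate -/
def lg : Lg gm := ex_lg.some

instance : Fintype lg.ι := lg.fin

/-- a flat bundle with a unit `f`, and the fibre `f = 1` -/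
structure Dt : Type 1 where
  b : ℕ
  d : ℕ
  D : ℕ
  E : ℕ
  B : Mn b
  c : Cv B
  M : Vr (d + 1)
  Z : Vr d
  F : Fl c M D
  G : Fl c Z E
  e : Z.X → M.X
  i : G.T.X → F.T.X
  f₀ : M.X → ℂ
  f : F.T.X → ℂ
  conn : ∀ a, IsPreconnected (c.V a)
  hm : Hm0 G F (fun _ => e) i
  reg : Reg M.cp f₀
  inv : F.Inv (fun _ => f₀) f
  ne : ∀ m, f₀ m ≠ 0
  rng : range e = {m | f₀ m = 1}
  cemb : IsClosedEmbedding e
  sbm : ∀ m, f₀ m = 1 → Sbm (d + 1) 1 (fun m (_ : Fin 1) => f₀ m - 1) m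

namespace Dt

variable (X : Dt)

theorem gy (W : WF) :
    Grd (wH W X.F) (wH W X.G) (-2) (P275S.pb (tm X.hm.smo)).toLinearMap :=
  P275TG.gyp W X.F X.G X.conn X.hm (f := fun t => X.f t - 1) (X.reg.sub (.const _ 1))
    (fun a t k => congrArg (· - 1) (X.inv a t k)) (by simp only [X.rng, sub_eq_zero])
    X.cemb (fun m k => X.sbm m (sub_eq_zero.1 k)) _

theorem nz : Nz (X := TopCat.of X.F.T.X) X.f :=
  ⟨X.inv.cont fun _ => continuous_iff_continuousAt.2 fun m => (X.reg.hol m).cont, fun t =>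
    let ⟨a, h⟩ := X.c.cov (X.F.q t)
    X.inv a t h ▸ X.ne _⟩

theorem cemb_i : IsClosedEmbedding X.i := X.hm.cemb .id fun _ => X.cemb

theorem range_i : range X.i = {t | X.f t = 1} := Set.ext fun t =>
  X.hm.mem_range.trans ⟨fun ⟨a, _, h, e, k⟩ => (X.inv a t (e ▸ h)).trans (X.rng.le k), fun k =>
    let ⟨a, h⟩ := X.c.cov (X.F.q t)
    ⟨a, _, h, rfl, X.rng.ge ((X.inv a t h).symm.trans k)⟩⟩

theorem e_tr {a a' : X.c.ι} (h : (X.c.V a ∩ X.c.V a').Nonempty) (m : X.Z.X) :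
    X.e (X.G.tr a a' m) = X.F.tr a a' (X.e m) := by
  obtain ⟨x, h, h'⟩ := h
  have q : _ = x := X.G.qψ a' (x, m) h'
  have k := X.hm.qt (X.G.ψ a' (x, m))
  have e := X.F.φtr a a' _ ((k.trans q).symm ▸ h) ((k.trans q).symm ▸ h')
  have e1 : X.F.φ a _ = _ := X.hm.φt a _ (q.symm ▸ h)
  have e2 : X.F.φ a' _ = _ := X.hm.φt a' _ (q.symm ▸ h')
  rwa [e1, e2, X.G.φtr a a' _ (q.symm ▸ h) (q.symm ▸ h'), X.G.φψ a' (x, m) h'] at e

/-- the cover of the new base -/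
def c₂ : Cv (X.B.prod Gm.toMn) :=
  ⟨X.c.ι × lg.ι, fun a => X.c.V a.1 ×ˢ lg.U a.2, fun _ => (X.c.opn _).prod (lg.opn _),
    fun x => let ⟨i, h⟩ := X.c.cov x.1; let ⟨j, k⟩ := lg.cov x.2; ⟨(i, j), h, k⟩⟩

/-- the twisted transitions -/
def tr (a a' : X.c₂.ι) (z : X.M.X × Gm.X) : X.M.X × Gm.X :=
  (X.F.tr a.1 a'.1 z.1, γ (X.f₀ z.1 ^ lg.k a.2 a'.2 * gm z.2))

theorem tr_ne (k : ℤ) (z : X.M.X × Gm.X) : X.f₀ z.1 ^ k * gm z.2 ≠ 0 :=
  mul_ne_zero (zpow_ne_zero _ (X.ne _)) (isGm.ne _)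

theorem coc : Coc X.c₂ (X.M.prod Gm) X.tr :=
  ⟨fun a a' ⟨x, k⟩ => ((X.F.alg _ _ ⟨x.1, k.1.1, k.2.1⟩).comp .fst).pair (isGm.alg (by
      simp only [gm_γ (X.tr_ne _ _)]
      exact ((reg_zpow X.reg X.ne _).comp .fst).mul (isGm.reg.comp .snd))),
    fun a ⟨x, k⟩ z => Prod.ext (X.F.tv.t_self k.1 _) (by
      simp only [tr, lg.k_self k.2, zpow_zero, one_mul, γ_gm]),
    fun a a' a'' ⟨x, k⟩ z => Prod.ext (X.F.tv.t_t k.1.1.1 k.1.2.1 k.2.1 _) (by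
      simp only [tr, gm_γ (X.tr_ne _ _), inv_tr X.inv k.1.2.1 k.2.1, ← mul_assoc,
        ← zpow_add₀ (X.ne _), lg.k_add k.1.1.2 k.1.2.2 k.2.2])⟩

/-- the twisted bundle -/
def F₂ : Fl X.c₂ (X.M.prod Gm) (X.b + 1 + (X.d + 1 + 1)) := (flex _ _ _ _ _ _ X.coc).choose

theorem F₂_tr : X.F₂.tr = X.tr := (flex _ _ _ _ _ _ X.coc).choose_spec

/-- the fibre times the new base -/
def G₁ : Fl X.c₂ X.Z (X.b + 1 + X.d) := X.G.pb continuous_fst Prod.fst fun _ _ k => k.1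

theorem hm₁ : Hm (B' := X.B.prod Gm.toMn) Prod.fst Prod.fst X.G₁ X.G (fun _ y => y)
    fun w => w.1.2 := X.G.hm_pb (c' := X.c₂) hol_fst Prod.fst fun _ _ k => k.1

theorem ex_p : ∃ p, Hm (B' := X.B.prod Gm.toMn) Prod.fst Prod.fst X.F₂ X.F (fun _ => Prod.fst) p :=
  X.F₂.ex_hm X.F hol_fst (fun _ _ k => k.1) (fun _ => .fst) fun _ _ _ _ => by rw [F₂_tr]; rfl

/-- the projection -/
def p : X.F₂.T.X → X.F.T.X := X.ex_p.choose

theorem hp : Hm (B' := X.B.prod Gm.toMn) Prod.fst Prod.fst X.F₂ X.F (fun _ => Prod.fst) X.p :=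
  X.ex_p.choose_spec

theorem ex_i : ∃ i, Hm0 (X.G₁.prodV Gm) X.F₂ (fun _ => Prod.map X.e id) i :=
  (X.G₁.prodV Gm).ex_hm X.F₂ holM_id (fun _ _ k => k)
    (fun a => ((X.hm.alg a.1).comp .fst).pair .snd) fun a a' ⟨x, k⟩ z => by
      rw [F₂_tr]
      refine Prod.ext (X.e_tr ⟨x.1, k.1.1, k.2.1⟩ _) ?_
      have : X.f₀ (X.e z.1) = 1 := X.rng.le (mem_range_self _)
      simp only [tr, id, Prod.map_fst, Prod.map_snd, this, one_zpow, one_mul, γ_gm]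
      rfl

/-- the twisted data -/
def tw : Dt where
  b := X.b + 1
  d := X.d + 1
  D := _
  E := _
  B := X.B.prod Gm.toMn
  c := X.c₂
  M := X.M.prod Gm
  Z := X.Z.prod Gm
  F := X.F₂
  G := X.G₁.prodV Gm
  e := Prod.map X.e id
  i := X.ex_i.choose
  f₀ z := X.f₀ z.1
  f w := X.f (X.p w)
  conn _ := (X.conn _).prod (lg.con _)
  hm := X.ex_i.choose_spec
  reg := X.reg.comp .fst
  inv := X.hp.inv X.inv
  ne _ := X.ne _
  rng := by
    rw [range_prodMap, range_id, X.rng]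
    exact Set.ext fun _ => and_iff_left trivial
  cemb := X.cemb.prodMap .id
  sbm z k := .comp (g := fun m (_ : Fin 1) => X.f₀ m - 1)
    (holA_iff.2 fun _ => (X.reg.sub (.const _ 1)).hol _) (hol_fst.at z) (X.sbm _ k) (sbm_fst z)

/-- the coordinate of the new base -/
def A (w : X.F₂.T.X) : ℂ := gm (X.F₂.q w).2

/-- the fibre coordinate, read in the chart `a` -/
def Yc (a : X.c₂.ι) (z : ℂ) (w : X.F₂.T.X) : ℂ :=
  gm (X.F₂.φ a w).2 * exp (-(z * lg.l a.2 (X.F₂.q w).2 / (2 * π * I)))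

/-- the fibre coordinate for the logarithm `z` of the unit -/
def Y (z : ℂ) (w : X.F₂.T.X) : ℂ := X.Yc (X.c₂.cov (X.F₂.q w)).choose z w

/-- the point with given coordinates, in the chart `a` -/
def sc (a : X.c₂.ι) (t : X.F.T.X) (z u y : ℂ) : X.F₂.T.X :=
  X.F₂.ψ a ((X.F.q t, γ u), X.F.φ a.1 t, γ (y * exp (z * lg.l a.2 (γ u) / (2 * π * I))))

/-- the point with given coordinates -/
def sg (t : X.F.T.X) (z u y : ℂ) : X.F₂.T.X := X.sc (X.c₂.cov (X.F.q t, γ u)).choose t z u y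

variable {X} {a a' : X.c₂.ι} {z u y : ℂ} {w w' : X.F₂.T.X} {t : X.F.T.X}

theorem Yc_eq (h : exp z = X.f (X.p w)) (k : X.F₂.q w ∈ X.c₂.V a) (k' : X.F₂.q w ∈ X.c₂.V a') :
    X.Yc a z w = X.Yc a' z w := by
  have e : X.f₀ (X.F₂.φ a' w).1 = exp z := (h.trans (X.hp.inv X.inv a' w k')).symm
  rw [Yc, Yc, X.F₂.φtr a a' w k k', F₂_tr, tr, gm_γ (X.tr_ne _ _), e, ← exp_int_mul,
    eq_add_of_sub_eq (lg.sub a.2 a'.2 _ k.2 k'.2), mul_comm (exp _), mul_assoc, ← exp_add]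
  congr 2
  field_simp
  ring

theorem Y_eq (h : exp z = X.f (X.p w)) (k : X.F₂.q w ∈ X.c₂.V a) : X.Y z w = X.Yc a z w :=
  Yc_eq h (X.c₂.cov _).choose_spec k

theorem Y_ne (z : ℂ) (w : X.F₂.T.X) : X.Y z w ≠ 0 := mul_ne_zero (isGm.ne _) (exp_ne_zero _)

theorem Y_add (z : ℂ) (w : X.F₂.T.X) : X.Y (z + 2 * π * I) w * X.A w = X.Y z w := by
  rw [Y, Y, Yc, Yc, A, ← lg.exp _ _ (X.c₂.cov (X.F₂.q w)).choose_spec.2, mul_assoc, ← exp_add]
  congr 2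
  field_simp
  ring

theorem inj (h : exp z = X.f (X.p w)) (h1 : X.p w = X.p w') (h2 : X.A w = X.A w')
    (h3 : X.Y z w = X.Y z w') : w = w' := by
  obtain ⟨a, k⟩ := X.c₂.cov (X.F₂.q w)
  have e : X.F₂.q w = X.F₂.q w' :=
    Prod.ext ((X.hp.qt w).symm.trans (h1 ▸ X.hp.qt w')) (isGm.isEmb.injective h2)
  rw [Y_eq h k, Y_eq (h1 ▸ h) (e ▸ k), Yc, Yc, e] at h3
  exact X.F₂.tv.ext' k e (Prod.ext ((X.hp.φt a w k).symm.trans (h1 ▸ X.hp.φt a w' (e ▸ k)))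
    (isGm.isEmb.injective (mul_right_cancel₀ (exp_ne_zero _) h3)))

theorem sc_spec (h : exp z = X.f t) (hu : u ≠ 0) (hy : y ≠ 0) (k : (X.F.q t, γ u) ∈ X.c₂.V a) :
    X.p (X.sc a t z u y) = t ∧ X.A (X.sc a t z u y) = u ∧ X.Y z (X.sc a t z u y) = y := by
  have e1 : X.F₂.q (X.sc a t z u y) = (X.F.q t, γ u) := X.F₂.qψ a _ k
  have e2 : X.F₂.φ a (X.sc a t z u y) = _ := X.F₂.φψ a _ k
  have e3 : X.p (X.sc a t z u y) = t :=
    (X.F.tv.ext' (i := a.1) k.1 (((X.hp.qt _).trans (congrArg Prod.fst e1)).symm)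
      ((X.hp.φt a _ (e1.symm ▸ k)).trans (congrArg Prod.fst e2)).symm).symm
  refine ⟨e3, by rw [A, e1, gm_γ hu], ?_⟩
  rw [Y_eq (e3.symm ▸ h) (e1.symm ▸ k), Yc, e1, e2, gm_γ (mul_ne_zero hy (exp_ne_zero _)),
    mul_assoc, ← exp_add, add_neg_cancel, exp_zero, mul_one]

theorem sg_spec (h : exp z = X.f t) (hu : u ≠ 0) (hy : y ≠ 0) :
    X.p (X.sg t z u y) = t ∧ X.A (X.sg t z u y) = u ∧ X.Y z (X.sg t z u y) = y :=
  sc_spec h hu hy (X.c₂.cov _).choose_spec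

theorem sg_eq (h : exp z = X.f t) (hu : u ≠ 0) (hy : y ≠ 0) (k : (X.F.q t, γ u) ∈ X.c₂.V a) :
    X.sg t z u y = X.sc a t z u y :=
  have a := sg_spec h hu hy
  have b := sc_spec h hu hy k
  inj (a.1.symm ▸ h) (a.1.trans b.1.symm) (a.2.1.trans b.2.1.symm) (a.2.2.trans b.2.2.symm)

theorem lg_cont {j : lg.ι} {x : Gm.X} (h : x ∈ lg.U j) : ContinuousAt (lg.l j) x :=
  (lg.ct j).continuousAt ((lg.opn j).mem_nhds h)

theorem Y_cont : ContinuousOn (fun s : ℂ × X.F₂.T.X => X.Y s.1 s.2)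
    {s | exp s.1 = X.f (X.p s.2)} := fun s h => by
  obtain ⟨a, k⟩ := X.c₂.cov (X.F₂.q s.2)
  have h1 := (X.F₂.hφ a _ k).cont.comp (f := Prod.snd) (x := s) continuousAt_snd
  have h2 := (lg_cont k.2).comp (f := fun s : ℂ × X.F₂.T.X => (X.F₂.q s.2).2)
    (continuous_snd.comp (X.F₂.hq.cont.comp continuous_snd)).continuousAt
  refine ContinuousWithinAt.congr_of_eventuallyEq (f := fun s => X.Yc a s.1 s.2)
    (ContinuousAt.continuousWithinAt ?_) ?_ (Y_eq h k)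
  · exact (gm_cont.continuousAt.comp h1.snd).mul
      ((continuousAt_fst.mul h2).div_const _).neg.cexp
  · filter_upwards [self_mem_nhdsWithin,
      nhdsWithin_le_nhds (continuousAt_snd.eventually (X.F₂.tv.near k))] with s l l' using Y_eq l l'

theorem sg_cont : ContinuousOn (fun s : X.F.T.X × ℂ × ℂ × ℂ => X.sg s.1 s.2.1 s.2.2.1 s.2.2.2)
    {s | exp s.2.1 = X.f s.1 ∧ s.2.2.1 ≠ 0 ∧ s.2.2.2 ≠ 0} := fun s h => by
  obtain ⟨a, k⟩ := X.c₂.cov (X.F.q s.1, γ s.2.2.1)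
  have h0 := (γ_cont h.2.1).comp (f := fun s : X.F.T.X × ℂ × ℂ × ℂ => s.2.2.1) (by fun_prop)
  have h1 := (X.F.hq.cont.continuousAt.comp continuousAt_fst).prodMk h0
  have h2 := (lg_cont k.2).comp (f := fun s : X.F.T.X × ℂ × ℂ × ℂ => γ s.2.2.1) h0
  refine ContinuousWithinAt.congr_of_eventuallyEq (f := fun s => X.sc a s.1 s.2.1 s.2.2.1 s.2.2.2)
    (ContinuousAt.continuousWithinAt ?_) ?_ (sg_eq h.1 h.2.1 h.2.2 k)
  · refine ContinuousAt.comp (g := X.F₂.ψ a) (X.F₂.hψ a _ k).cont (h1.prodMk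
      (((X.F.hφ a.1 _ k.1).cont.comp continuousAt_fst).prodMk (ContinuousAt.comp (g := γ)
        (γ_cont (mul_ne_zero h.2.2 (exp_ne_zero _))) ?_)))
    exact continuousAt_snd.snd.snd.mul ((continuousAt_snd.fst.mul h2).div_const _).cexp
  · filter_upwards [self_mem_nhdsWithin,
      nhdsWithin_le_nhds (h1.eventually ((X.c₂.opn a).eventually_mem k))] with s l l'
      using sg_eq l.1 l.2.1 l.2.2 l'

end Dt

/-- `X₂` is the twist of `X` -/
structure Tw (X X₂ : Dt) (p : X₂.F.T.X → X.F.T.X) (p₁ : C(X₂.G.T.X, X.G.T.X)) (A : X₂.F.T.X → ℂ)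
    (Y : ℂ → X₂.F.T.X → ℂ) (sg : X.F.T.X → ℂ → ℂ → ℂ → X₂.F.T.X) : Prop where
  cp : Continuous p
  cA : Continuous A
  A_ne : ∀ w, A w ≠ 0
  f_eq : ∀ w, X₂.f w = X.f (p w)
  ip : ∀ v, X.i (p₁ v) = p (X₂.i v)
  cY : ContinuousOn (fun s : ℂ × X₂.F.T.X => Y s.1 s.2) {s | exp s.1 = X.f (p s.2)}
  Y_ne : ∀ z w, Y z w ≠ 0
  Y_add : ∀ z w, Y (z + 2 * π * I) w * A w = Y z w
  cs : ContinuousOn (fun s : X.F.T.X × ℂ × ℂ × ℂ => sg s.1 s.2.1 s.2.2.1 s.2.2.2)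
    {s | exp s.2.1 = X.f s.1 ∧ s.2.2.1 ≠ 0 ∧ s.2.2.2 ≠ 0}
  spec : ∀ {t z u y}, exp z = X.f t → u ≠ 0 → y ≠ 0 →
    p (sg t z u y) = t ∧ A (sg t z u y) = u ∧ Y z (sg t z u y) = y
  inj : ∀ {z w w'}, exp z = X.f (p w) → p w = p w' → A w = A w' → Y z w = Y z w' → w = w'
  gp : ∀ W, Grd (wH W X.G) (wH W X₂.G) 2 (P275S.pb (TopCat.ofHom p₁)).toLinearMap
  gA : ∀ W (h : Nz (X := TopCat.of X₂.G.T.X) fun v => A (X₂.i v)), MG (wH W X₂.G) 0 (wind h)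
  gY : ∀ W (h : Nz (X := TopCat.of X₂.G.T.X) fun v => Y 0 (X₂.i v)), MG (wH W X₂.G) (-2) (wind h)

theorem gy₀ (W : WF) {b d D E : ℕ} {B : Mn b} {c : Cv B} {M : Vr (d + 1)} {Z : Vr d} {F : Fl c M D}
    {G : Fl c Z E} (hc : ∀ i, IsPreconnected (c.V i)) {e i f₀ f} (k : Hm0 G F (fun _ => e) i)
    (h1 : Reg M.cp f₀) (h2 : F.Inv (fun _ => f₀) f) (h3 : Emb d (d + 1) e {m | f₀ m = 0})
    (h4 : IsClosedEmbedding e) (h5 : ∀ m, f₀ m = 0 → Sbm (d + 1) 1 (fun m (_ : Fin 1) => f₀ m) m) :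
    Grd (wH W F) (wH W G) (-2) (P275S.pb (tm k.smo)).toLinearMap :=
  P275TG.gyp W F G hc k h1 h2 h3.rng h4 h5 k.smo

namespace Dt

variable (X : Dt) (W : WF)

/-- the projection of the fibres -/
def p₁ : C(X.tw.G.T.X, X.G.T.X) := ⟨fun v => v.1.1.2, (X.hm₁.comp (X.G₁.hm_fst Gm)).hol.cont⟩

theorem gp : Grd (wH W X.G) (wH W X.tw.G) 2 (P275S.pb (TopCat.ofHom X.p₁)).toLinearMap :=
  have a := pbf W isGm (X.G₁.hm_fst Gm) (fun _ _ _ _ => rfl) (gy₀ W X.tw.conn)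
  grd_congr (a.comp (pbb W X.hm₁) (gr_wH W _)) rfl fun x =>
    (P275S.pb_comp (tm (X.G₁.hm_fst Gm).smo) (tm X.hm₁.smo) x).symm

theorem gA (h : Nz (X := TopCat.of X.tw.G.T.X) fun v => X.A (X.tw.i v)) :
    MG (wH W X.tw.G) 0 (wind h) := by
  have n : Nz (X := TopCat.of X.tw.B.X) fun x : X.B.X × Gm.X => gm x.2 :=
    ⟨gm_cont.comp continuous_snd, fun _ => isGm.ne _⟩
  rw [(wind_congr h (n.pb (tm (smo_of_hol X.tw.G.hq))) fun v =>
    congrArg (fun x : X.B.X × Gm.X => gm x.2) (X.tw.hm.qt v)).trans (wind_pb _ n)]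
  exact mg_base W _ _ _

theorem gY (h : Nz (X := TopCat.of X.tw.G.T.X) fun v => X.Y 0 (X.tw.i v)) :
    MG (wH W X.tw.G) (-2) (wind h) := by
  refine P275TU.unit W X.tw.conn (f₀ := fun m : X.Z.X × Gm.X => gm m.2) (isGm.reg.comp .snd) (fun a v k => ?_)
    (fun _ => isGm.ne _) h (gy₀ W X.tw.conn)
  have e : X.F₂.φ a _ = _ := X.tw.hm.φt a v k
  rw [Y_eq (exp_zero.trans (X.tw.range_i.le (mem_range_self v)).symm)
      (mem_of_eq_of_mem (X.tw.hm.qt v) k),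
    Yc, e, zero_mul, zero_div, neg_zero, exp_zero, mul_one]
  rfl

end Dt

/-- **TW** -/
theorem tw (X : Dt) : Tw X X.tw X.p X.p₁ X.A X.Y X.sg :=
  ⟨X.hp.hol.cont, gm_cont.comp (continuous_snd.comp X.F₂.hq.cont), fun _ => isGm.ne _, fun _ => rfl,
    P275TB.hm_uniq (X.hm.comp (X.hm₁.comp (X.G₁.hm_fst Gm))) (X.hp.comp X.tw.hm) rfl, Dt.Y_cont,
    Dt.Y_ne, Dt.Y_add, Dt.sg_cont, Dt.sg_spec, Dt.inj, X.gp, X.gA, X.gY⟩

end Vale.Agent.P275TX
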