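import Vale.Agent.P275TX.Twt
import Vale.Agent.P275TT.Lic
import Vale.Agent.P275TE.Alg
import Vale.Agent.P275B.Gt

/-!
# P275, the monodromy lowers the weights by two
-/

open Set Function
open Vale.Agent.P275B Vale.Agent.P275FM Vale.Agent.P275XI Vale.Agent.P275TB Vale.Agent.P275TT
  Vale.Agent.P275TE
open P275S (H pb)
open Vale.Agent.P275MC (tm)

noncomputable section

set_option backward.isDefEq.respectTransparency false

namespace Vale.Agent.P275TX

variable (W : WF) {Ω : Set ℂ} {ε : ℝ} {o : Dom Ω ε} {X : Dt} {V : Type} [AddCommGroup V] [Module ℂ V]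
  {ρ : V →ₗ[ℂ] H ℂ (Dp (T := X.T) X.f Ω)} {U : Module.End ℂ V}

/-- the identification with the cohomology of the fibre -/
def gam (m : Mo (T := X.T) X.f o ρ U) : V ≃ₗ[ℂ] H ℂ X.S :=
  .ofBijective ((pb (X.sl o.zero)).toLinearMap ∘ₗ ρ)
    (m.slice (tm X.hm.smo) X.f_i X.cemb_i.isEmbedding fun _ h => X.range_i.ge h)

theorem gam_apply (m : Mo (T := X.T) X.f o ρ U) (a : V) : gam m a = pb (X.sl o.zero) (ρ a) := rfl

theorem lv_all (r : ℕ) : ∀ (X : Dt) (V : Type) [AddCommGroup V] [Module ℂ V]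
    (ρ : V →ₗ[ℂ] H ℂ (Dp (T := X.T) X.f Ω)) (U : Module.End ℂ V) (m : Mo (T := X.T) X.f o ρ U),
    Lv (tr (gam m) (wH W X.G)) U (r + 1) := by
  induction r with
  | zero =>
    intro X V _ _ ρ U m
    refine lv_one (gr_tr _ (gr_wH W _)) (gr_wH W _) (grd_tr_right _ (X.gy W)) fun a =>
      ⟨fun h => ?_, ?_⟩
    · obtain ⟨c, hc⟩ := m.glob (tm X.hm.smo) X.f_i h
      exact ⟨c, (gam m).symm_apply_eq.2 hc.symm⟩
    · rintro ⟨c, rfl⟩
      obtain ⟨a, h1, h2⟩ := m.inv (tm X.hm.smo) X.f_i c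
      have e : (gam m).symm (pb (tm X.hm.smo) c) = a := (gam m).symm_apply_eq.2 h2.symm
      exact (congrArg U e).trans (h1.trans e.symm)
  | succ r ih =>
    intro X V _ _ ρ U m
    have T := tw X
    refine lv_succ (j := .inl ℂ _ _ ∘ₗ .inr ℂ V V) (k := .inr ℂ _ _ ∘ₗ .inl ℂ V V) (c := -1)
      (s := 2) (fun a => by simp [U4_apply]) (fun a => by simp [U4_apply]) (gr_tr _ (gr_wH W _))
      (gr_tr _ (gr_wH W _)) (grd_tr _ _ (fun a => ?_) (T.g01 W))
      (grd_tr _ _ (fun a => ?_) (grd_congr (T.g10 W) (by norm_num) fun _ => rfl))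
      (fun a b h => by simpa [Prod.ext_iff] using h) (by norm_num) (ih _ _ _ _ (T.mo m)) <;>
    · rw [gam_apply, T.sl_ρ]
      simp [gam_apply, Prod.mk_zero_zero]

/-- **TATE** -/
theorem tate (m : Mo (T := X.T) X.f o ρ U) {r : ℕ} (nil : (U - 1) ^ r = 0) {a : V} {k : ℤ}
    (h : pb (X.sl o.zero) (ρ a) ∈ WG (wH W X.G) k) :
    pb (X.sl o.zero) (ρ (U a - a)) ∈ WG (wH W X.G) (k + 2) :=
  (ge_tr (gam m)).1 (lv_fin (gr_tr _ (gr_wH W _)) (lv_all W r X V ρ U m)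
    (by rw [pow_succ, nil, zero_mul]) ((ge_tr (gam m)).2 h))

end Vale.Agent.P275TX
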