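import Vale.Agent.P275TX.Tw
import Vale.Agent.P275TT.Top

/-!
# P275, the topology of the twist
-/

open scoped Real
open Set Function Topology Complex CategoryTheory
open Vale.Agent.P275B Vale.Agent.P275FM Vale.Agent.P275XI Vale.Agent.P275TB Vale.Agent.P275TT
open P275S (H Hd Nz Nice pb wind wind_pb wind_congr wind_mul wind_sq wind_mem kunc pb_comp)
open Vale.Agent.P275MC (tm)

noncomputable section

set_option backward.isDefEq.respectTransparency false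

namespace Vale.Agent.P275TX

/-- four copies -/
abbrev V4 (V : Type) : Type := (V × V) × V × V

section kk

variable {X Z X' Z' : TopCat.{0}} {V : Type} [AddCommGroup V] [Module ℂ V]

theorem grd_left [Nice X] {w : ℕ → Module.End ℂ (H ℂ X)} (hw : IsGr w)
    (hp : ∀ m, Grd w w 0 (P275S.KG.pr m)) {a : H ℂ X} {n s : ℤ} (ha : a ∈ Hd ℂ X n)
    (g : MG w s a) : Grd w w s (LinearMap.mulLeft ℂ a) := fun q q' x hq => by
  refine P275S.KG.ind_deg (P := fun x : H ℂ X => w q' (a * w q x) = 0)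
    (by rw [map_zero, mul_zero, map_zero]) (fun m x hx => ?_)
    (fun x y h1 h2 => by rw [map_add, mul_add, map_add, h1, h2, add_zero]) x
  have e : w q x ∈ Hd ℂ X m := P275S.KG.mem_deg_iff_pr.2
    (((hp m).comm hw hw (add_zero _).symm x).symm.trans (congrArg _ (P275S.KG.pr_of_mem hx)))
  rw [P275S.mul_comm_Hd ha e, Units.smul_def, map_zsmul]
  exact (congrArg _ (g q q' x hq)).trans (smul_zero _)

/-- the four components -/
def KK (φ : V →ₗ[ℂ] H ℂ Z) (θ β : H ℂ Z) : V4 V →ₗ[ℂ] H ℂ Z :=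
  (φ.coprod (.mulLeft ℂ θ ∘ₗ φ)).coprod (.mulLeft ℂ β ∘ₗ φ.coprod (.mulLeft ℂ θ ∘ₗ φ))

theorem KK_apply (φ : V →ₗ[ℂ] H ℂ Z) (θ β : H ℂ Z) (v : V4 V) :
    KK φ θ β v = φ v.1.1 + θ * φ v.1.2 + β * (φ v.2.1 + θ * φ v.2.2) := rfl

theorem pb_KK (j : Z' ⟶ Z) (φ : V →ₗ[ℂ] H ℂ Z) (θ β : H ℂ Z) (v : V4 V) :
    pb j (KK φ θ β v) = KK ((pb j).toLinearMap ∘ₗ φ) (pb j θ) (pb j β) v := by
  simp only [KK_apply, map_add, map_mul, LinearMap.comp_apply, AlgHom.toLinearMap_apply]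

theorem emb_of {α β δ : Type} [TopologicalSpace α] [TopologicalSpace β] [TopologicalSpace δ]
    {φ : α → β} {g : β → δ} {j : α → δ} {S : Set β} (hj : IsEmbedding j) (hφ : Continuous φ)
    (hg : ContinuousOn g S) (h : ∀ x, φ x ∈ S) (e : ∀ x, g (φ x) = j x) : IsEmbedding φ :=
  IsEmbedding.subtypeVal.comp (IsEmbedding.of_comp (f := S.codRestrict φ h) (g := S.domRestrict g)
    (hφ.subtype_mk _) hg.domRestrict (funext e ▸ hj :))

/-- the cohomology of the product with two punctured planes -/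
theorem kun2 [Nice X] (p : Z ⟶ X) {A Y : Z → ℂ} (hA : Nz A) (hY : Nz Y)
    (he : IsEmbedding fun z => (p z, A z, Y z))
    (hr : ∀ x u y, u ≠ 0 → y ≠ 0 → ∃ z, p z = x ∧ A z = u ∧ Y z = y) {φ : V →ₗ[ℂ] H ℂ X}
    (hφ : Bijective φ) : Bijective (KK ((pb p).toLinearMap ∘ₗ φ) (wind hA) (wind hY)) := by
  let M : TopCat.{0} := TopCat.of {s : X × ℂ // s.2 ≠ 0}
  have : Nice M := ⟨((isOpen_ne (x := (0 : ℂ))).preimage continuous_snd).locallyCompactSpace,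
    inferInstance, IsEmbedding.subtypeVal.secondCountableTopology⟩
  let q : M ⟶ X := TopCat.ofHom ⟨fun s => s.1.1, by fun_prop⟩
  let r : Z ⟶ M := TopCat.ofHom ⟨fun z => ⟨(p z, A z), hA.ne z⟩,
    (p.hom.continuous.prodMk hA.ct).subtype_mk _⟩
  have n : Nz (X := M) fun s => s.1.2 := ⟨by fun_prop, fun s => s.2⟩
  have k1 := kunc q n IsEmbedding.subtypeVal fun x u h => ⟨⟨(x, u), h⟩, rfl, rfl⟩
  have k2 := kunc r hY (.of_comp (g := fun s : {s : X × ℂ // s.2 ≠ 0} × ℂ => (s.1.1.1, s.1.1.2, s.2))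
    (r.hom.continuous.prodMk hY.ct) (by fun_prop) he) fun x y h =>
      let ⟨z, h1, h2, h3⟩ := hr x.1.1 x.1.2 y x.2 h
      ⟨z, Subtype.ext (Prod.ext h1 h2), h3⟩
  have k3 := k1.comp (hφ.prodMap hφ)
  convert k2.comp (k3.prodMap k3) using 1
  funext v
  have e : ∀ a, pb r (pb q a) = pb (k := ℂ) p a := fun a => pb_comp r q a
  simp only [KK_apply, Function.comp_apply, Prod.map_fst, Prod.map_snd, map_add, map_mul, e, ← wind_pb,
    LinearMap.comp_apply, AlgHom.toLinearMap_apply]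

theorem nice_Dp [Nice X] {w : X → ℂ} (hw : Continuous w) {P : Set ℂ} (h : IsOpen P ∨ P = {0}) :
    Nice (Dp w P) :=
  have k : IsLocallyClosed P :=
    h.elim IsOpen.isLocallyClosed fun e => e ▸ isClosed_singleton.isLocallyClosed
  ⟨((k.preimage continuous_snd).inter (isClosed_eq (cont_ex.comp continuous_snd)
    (hw.comp continuous_fst)).isLocallyClosed).locallyCompactSpace, inferInstance,
    IsEmbedding.subtypeVal.secondCountableTopology⟩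

/-- the monodromy of the twist -/
def U4 (U : Module.End ℂ V) : Module.End ℂ (V4 V) :=
  ((U.prodMap U) ∘ₗ .fst ℂ _ _ - .inr ℂ V V ∘ₗ U ∘ₗ .fst ℂ V V ∘ₗ .snd ℂ _ _).prod
    ((U.prodMap U) ∘ₗ .snd ℂ _ _)

theorem U4_apply (U : Module.End ℂ V) (v : V4 V) :
    U4 U v = ((U v.1.1, U v.1.2 - U v.2.1), U v.2.1, U v.2.2) :=
  Prod.ext (Prod.ext (sub_zero _) rfl) rfl

end kk

namespace Dt

variable (X : Dt)

/-- the total space -/
abbrev T : TopCat.{0} := TopCat.of X.F.T.X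

/-- the fibre -/
abbrev S : TopCat.{0} := TopCat.of X.G.T.X

instance : Nice X.T := P275MC.nice (d := X.D)

instance : Nice X.S := P275MC.nice (d := X.E)

theorem f_i (v : X.G.T.X) : X.f (X.i v) = 1 := X.range_i.le (mem_range_self v)

/-- the fibre in the covering -/
abbrev sl {P : Set ℂ} (h : (0 : ℂ) ∈ P) : X.S ⟶ Dp (T := X.T) X.f P :=
  P275TT.sl (T := X.T) X.f (tm X.hm.smo) X.f_i h

end Dt

namespace Tw

variable {X X₂ : Dt} {p p₁ A Y sg} (T : Tw X X₂ p p₁ A Y sg) {P Q Ω : Set ℂ} {ε : ℝ}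
include T

/-- the projection of the coverings -/
def pr (P : Set ℂ) : Dp (T := X₂.T) X₂.f P ⟶ Dp (T := X.T) X.f P :=
  TopCat.ofHom ⟨fun s => ⟨(p s.1.1, s.1.2), s.2.1, s.2.2.trans (T.f_eq _)⟩,
    (((T.cp.comp continuous_fst).prodMk continuous_snd).comp continuous_subtype_val).subtype_mk _⟩

theorem nA (P : Set ℂ) : Nz (X := Dp (T := X₂.T) X₂.f P) fun s => A s.1.1 :=
  ⟨T.cA.comp (by fun_prop), fun _ => T.A_ne _⟩

theorem nY (P : Set ℂ) : Nz (X := Dp (T := X₂.T) X₂.f P) fun s => Y (2 * π * I * s.1.2) s.1.1 :=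
  ⟨T.cY.comp_continuous (f := fun s : Dp (T := X₂.T) X₂.f P => (2 * π * I * s.1.2, s.1.1))
    (by fun_prop) fun s => s.2.2.trans (T.f_eq _), fun _ => T.Y_ne _ _⟩

theorem e0 (v : X₂.G.T.X) : exp 0 = X.f (p (X₂.i v)) :=
  exp_zero.trans ((X₂.f_i v).symm.trans (T.f_eq _))

theorem nA₁ : Nz (X := X₂.S) fun v => A (X₂.i v) :=
  ⟨T.cA.comp X₂.cemb_i.continuous, fun _ => T.A_ne _⟩

theorem nY₁ : Nz (X := X₂.S) fun v => Y 0 (X₂.i v) :=
  ⟨T.cY.comp_continuous (f := fun v => (0, X₂.i v)) (continuous_const.prodMk X₂.cemb_i.continuous)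
    T.e0, fun _ => T.Y_ne _ _⟩

theorem sg_id {z w} (h : exp z = X.f (p w)) : sg (p w) z (A w) (Y z w) = w :=
  have k := T.spec h (T.A_ne w) (T.Y_ne z w)
  T.inj (k.1.symm ▸ h) k.1 k.2.1 k.2.2

variable {V : Type} [AddCommGroup V] [Module ℂ V]

theorem bijD (h : IsOpen P ∨ P = {0}) {φ : V →ₗ[ℂ] H ℂ (Dp (T := X.T) X.f P)} (hφ : Bijective φ) :
    Bijective (KK ((pb (T.pr P)).toLinearMap ∘ₗ φ) (wind (T.nA P)) (wind (T.nY P))) := by
  have := nice_Dp (X := X.T) X.nz.ct h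
  refine kun2 _ _ _ (emb_of (S := {s | s.2.1 ≠ 0 ∧ s.2.2 ≠ 0})
    (g := fun s : Dp (T := X.T) X.f P × ℂ × ℂ =>
      (sg s.1.1.1 (2 * π * I * s.1.1.2) s.2.1 s.2.2, s.1.1.2)) .subtypeVal
    ((T.pr P).hom.continuous.prodMk ((T.nA P).ct.prodMk (T.nY P).ct))
    (.prodMk (T.cs.comp (f := fun s : Dp (T := X.T) X.f P × ℂ × ℂ =>
      (s.1.1.1, 2 * π * I * s.1.1.2, s.2.1, s.2.2)) (by fun_prop) fun s k => ⟨s.1.2.2, k⟩)
      (by fun_prop)) (fun _ => ⟨T.A_ne _, T.Y_ne _ _⟩)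
    fun s => Prod.ext (T.sg_id (s.2.2.trans (T.f_eq _))) rfl) (fun x u y hu hy => ?_) hφ
  obtain ⟨a, b, c⟩ := T.spec x.2.2 hu hy
  exact ⟨⟨(_, x.1.2), x.2.1, x.2.2.trans ((T.f_eq _).trans (congrArg X.f a)).symm⟩,
    Subtype.ext (Prod.ext a rfl), b, c⟩

/-- the cohomology of the new fibre -/
def K : V4 (H ℂ X.S) →ₗ[ℂ] H ℂ X₂.S :=
  KK (pb (X' := X₂.S) (X := X.S) (TopCat.ofHom p₁)).toLinearMap (wind T.nA₁) (wind T.nY₁)

theorem bijK : Bijective T.K := by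
  have e : ∀ t, exp 0 = X.f (X.i t) := fun t => exp_zero.trans (X.f_i t).symm
  refine kun2 (φ := LinearMap.id) (TopCat.ofHom p₁) T.nA₁ T.nY₁
    (emb_of (S := {s | s.2.1 ≠ 0 ∧ s.2.2 ≠ 0}) (g := fun s => sg (X.i s.1) 0 s.2.1 s.2.2)
      X₂.cemb_i.isEmbedding (p₁.continuous.prodMk (T.nA₁.ct.prodMk T.nY₁.ct))
      (T.cs.comp (f := fun s : X.S × ℂ × ℂ => (X.i s.1, 0, s.2.1, s.2.2))
        (by have := X.cemb_i.continuous; fun_prop) fun s k => ⟨e _, k⟩)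
      (fun _ => ⟨T.A_ne _, T.Y_ne _ _⟩) fun v => (congrArg (sg · 0 _ _) (T.ip v)).trans
        (T.sg_id (T.e0 v))) (fun x u y hu hy => ?_) bijective_id
  obtain ⟨a, b, c⟩ := T.spec (e x) hu hy
  obtain ⟨v, hv⟩ := X₂.range_i.ge ((T.f_eq _).trans ((congrArg X.f a).trans (X.f_i x)))
  exact ⟨v, X.cemb_i.injective ((T.ip v).trans (hv ▸ a)), hv ▸ b, hv ▸ c⟩

/-- the new constant system -/
def ρ (ρ : V →ₗ[ℂ] H ℂ (Dp (T := X.T) X.f Ω)) : V4 V →ₗ[ℂ] H ℂ (Dp (T := X₂.T) X₂.f Ω) :=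
  KK ((pb (T.pr Ω)).toLinearMap ∘ₗ ρ) (wind (T.nA Ω)) (wind (T.nY Ω))

variable {ρ : V →ₗ[ℂ] H ℂ (Dp (T := X.T) X.f Ω)} {U : Module.End ℂ V} {o : Dom Ω ε}

theorem inc_ρ (h : P ⊆ Ω) (v : V4 V) : pb (inc _ h) (T.ρ ρ v) =
    KK ((pb (T.pr P)).toLinearMap ∘ₗ (pb (inc _ h)).toLinearMap ∘ₗ ρ) (wind (T.nA P))
      (wind (T.nY P)) v := by
  rw [Tw.ρ, pb_KK, ← wind_pb, ← wind_pb]
  exact congrArg (KK · _ _ v) (LinearMap.ext fun a =>
    (pb_comp _ _ _).trans (pb_comp (T.pr P) (inc _ h) _).symm)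

/-- **TWT** -/
theorem mo (h : Mo (T := X.T) X.f o ρ U) : Mo (T := X₂.T) X₂.f o (T.ρ ρ) (U4 U) where
  ct := X₂.nz.ct
  cov t := T.f_eq t ▸ h.cov (p t)
  bij P k c n l := by
    simp only [T.inc_ρ]
    exact T.bijD l (h.bij P k c n l)
  mon v := by
    have := nice_Dp (X := X₂.T) X₂.nz.ct (P := Up) (.inl (isOpen_lt continuous_const continuous_im))
    have e : ∀ a, pb (sh _ o.up') (pb (T.pr Ω) (ρ a)) = pb (T.pr Up) (pb (inc _ o.up) (ρ (U a))) :=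
      fun a => by
        rw [h.mon]
        exact (pb_comp _ _ _).trans (pb_comp (T.pr Up) (sh _ o.up') _).symm
    have e1 : pb (sh _ o.up') (wind (T.nA Ω)) = wind (T.nA Up) := (wind_pb _ _).symm
    have e2 : pb (sh _ o.up') (wind (T.nY Ω)) = wind (T.nY Up) - wind (T.nA Up) := by
      rw [← wind_pb, eq_sub_iff_add_eq, ← wind_mul]
      exact wind_congr _ _ fun s => (congrArg (Y · s.1.1 * _) (mul_add_one _ _)).trans (T.Y_add _ _)
    rw [T.inc_ρ, Tw.ρ, pb_KK, e1, e2, U4_apply]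
    simp only [KK_apply, LinearMap.comp_apply, AlgHom.toLinearMap_apply, e, map_sub, mul_sub,
      sub_mul, mul_add, ← mul_assoc, wind_sq, zero_mul]
    abel

theorem sl_ρ (h : (0 : ℂ) ∈ Ω) (v : V4 V) : pb (X₂.sl h) (T.ρ ρ v) =
    T.K ((pb (X.sl h) (ρ v.1.1), pb (X.sl h) (ρ v.1.2)), pb (X.sl h) (ρ v.2.1),
      pb (X.sl h) (ρ v.2.2)) := by
  have e : ∀ a, pb (X₂.sl h) (pb (T.pr Ω) a) =
      pb (k := ℂ) (TopCat.ofHom p₁) (pb (X.sl h) a) := fun a => by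
    rw [pb_comp, pb_comp]
    exact congrArg (pb · a) (TopCat.ext fun v => Subtype.ext (Prod.ext (T.ip v).symm rfl))
  have e2 : pb (X₂.sl h) (wind (T.nY Ω)) = wind T.nY₁ :=
    (wind_pb _ _).symm.trans (wind_congr _ _ fun s => congrArg (Y · _) (mul_zero _))
  rw [Tw.ρ, pb_KK, e2, ← wind_pb]
  simp only [K, KK_apply, LinearMap.comp_apply, AlgHom.toLinearMap_apply, e]

variable (W : WF)

theorem lA : Grd (wH W X₂.G) (wH W X₂.G) 0 (.mulLeft ℂ (wind T.nA₁)) :=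
  grd_left (gr_wH W _) (grd_pr W _) (wind_mem _) (T.gA W _)

theorem lY : Grd (wH W X₂.G) (wH W X₂.G) (-2) (.mulLeft ℂ (wind T.nY₁)) :=
  grd_left (gr_wH W _) (grd_pr W _) (wind_mem _) (T.gY W _)

theorem g00 : Grd (wH W X.G) (wH W X₂.G) 2 (T.K ∘ₗ .inl ℂ _ _ ∘ₗ .inl ℂ _ _) :=
  grd_congr (T.gp W) rfl fun x => by simp [K, KK_apply]

theorem g01 : Grd (wH W X.G) (wH W X₂.G) 2 (T.K ∘ₗ .inl ℂ _ _ ∘ₗ .inr ℂ _ _) :=
  grd_congr ((T.lA W).comp (T.gp W) (gr_wH W _)) rfl fun x => by simp [K, KK_apply]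

theorem g10 : Grd (wH W X.G) (wH W X₂.G) 0 (T.K ∘ₗ .inr ℂ _ _ ∘ₗ .inl ℂ _ _) :=
  grd_congr ((T.lY W).comp (T.gp W) (gr_wH W _)) rfl fun x => by simp [K, KK_apply]

theorem g11 : Grd (wH W X.G) (wH W X₂.G) 0 (T.K ∘ₗ .inr ℂ _ _ ∘ₗ .inr ℂ _ _) :=
  grd_congr ((T.lY W).comp ((T.lA W).comp (T.gp W) (gr_wH W _)) (gr_wH W _)) rfl
    fun x => by simp [K, KK_apply]

end Tw

end Vale.Agent.P275TX
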